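import Crest.Agent.WL.SysEq
import Crest.Agent.WL.XT5
import Crest.Agent.WL.XIso
import Crest.Agent.WL.XShape
import Crest.Agent.WLH.AddC
import Crest.Agent.WLH.NotBd

/-!
# Row 290 (S0437): identification of the graph of a table machine; `CoreD`
-/

set_option autoImplicit false

namespace Crest.Agent.WL

open Crest.Agent.CHR Crest.CountHier Crest.Agent.WLM Crest.Agent.WLD Crest.Agent.WLH
  Crest.Agent.WLX Crest.WLRefine

section aux

variable {B C : Type} [DecidableEq B] [DecidableEq C]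

omit [DecidableEq B] in
/-- More pebbles than checks: a global solution. -/
theorem CFam.global {X : XSys B C} [Fintype C] {t : ℕ} (F : CFam X t) (ht : Fintype.card C < t) :
    ∃ z : B → ZMod 2, ∀ c, X.Sat z c := by
  have key : ∀ P : Finset C, ∃ g, F.F P g := by
    intro P
    induction P using Finset.induction_on with
    | empty => exact F.ne
    | insert c P _ ih =>
      obtain ⟨g, hg⟩ := ih
      obtain ⟨g', -, hg'⟩ := F.ext P g hg (lt_of_le_of_lt (Finset.card_le_univ P) ht) c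
      exact ⟨g', hg'⟩
  obtain ⟨g, hg⟩ := key Finset.univ
  exact ⟨g, fun c => F.sat _ _ hg c (Finset.mem_univ c)⟩

/-- the same dictionary for other parities -/
def Dict.par {S : Sys} {X : XSys B C} (D : Dict S X) (β : C → ZMod 2) :
    Dict S (⟨X.inc, β⟩ : XSys B C) := ⟨D.fC, D.fE, D.inj, D.hinc⟩

/-- An isomorphism is a pebble family for every number of pebbles. -/
theorem fam_of_iso {V W : Type} [Fintype V] [DecidableEq V] [Fintype W] [DecidableEq W] (t : ℕ)
    {G : V → V → Bool} {H : W → W → Bool} (φ : V ≃ W) (h : ∀ p q, H (φ p) (φ q) = G p q)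
    (x : Fin t → V) : ∃ F : PebbleFam t G H, F.R x (fun i => φ (x i)) := by
  refine ⟨{ R := fun x x' => x' = fun i => φ (x i), atom := ?_, step := ?_ }, rfl⟩
  · rintro x _ rfl
    unfold atT
    refine Prod.ext ?_ ?_
    · funext i j
      simp
    · funext i j
      exact (h _ _).symm
  · rintro x _ rfl i
    refine ⟨φ, fun z => ?_⟩
    funext j
    rcases eq_or_ne j i with rfl | hj
    · simp
    · simp [Function.update_of_ne hj]

end aux

variable {bsys : Tab → ℕ → ℕ → Sys} {btw : ∀ T N b, (bsys T N b).C → ZMod 2}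

/-- The graph of the twisted system is not isomorphic to the graph of the untwisted one. -/
theorem not_iso (B : BDict bsys btw) (T : Tab) (N b : ℕ) (hN : 1 ≤ N)
    (hne : Nonempty (V0 (bsys T N b)))
    (φ : X.V (bsys T N b) ≃ X.V (bsys T N b))
    (h : ∀ p q, X.adj (bsys T N b) (btw T N b) (φ p) (φ q) =
      X.adj (bsys T N b) (fun _ => 0) p q) : False := by
  classical
  have : Fintype (book T N b hN).Chk :=
    Fintype.ofEquiv {c : (bsys T N b).C // (bsys T N b).al c = true} (B.D T N b hN).fC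
  obtain ⟨v⟩ := hne
  obtain ⟨F, hF⟩ := fam_of_iso (Fintype.card (book T N b hN).Chk + 3) φ h (fun _ => (v, 0))
  obtain ⟨Bf⟩ := X.exists_fam (show 3 ≤ Fintype.card (book T N b hN).Chk + 3 by omega)
    (fun _ => 0) (btw T N b) F _ _ hF
  have e : (fun c => (0 : ZMod 2) + btw T N b c) = btw T N b := by
    funext c; rw [zero_add]
  rw [e] at Bf
  obtain ⟨Cf⟩ := (B.D T N b hN).cfam (btw T N b) Bf (B.htw T N b hN)
  obtain ⟨z, hz⟩ := Cf.global (by omega)
  exact book_not_bd T hN z hz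

/-- Acceptance: every graph equivalent to the untwisted graph is isomorphic to it. -/
theorem identifies_accept (B : BDict bsys btw) {T : Tab} (hT : T.Ok) {N b : ℕ} (hN : 1 ≤ N)
    (hb : 1 ≤ b) {t : ℕ} (ht : t + 1 < (b + 1) ^ N) (hacc : T.Acc [] t) {m : ℕ} (hm : 0 < m)
    (G : Fin m → Fin m → Bool) (e : Fin m ≃ X.V (bsys T N b))
    (hG : ∀ u v, G u v = X.adj (bsys T N b) (fun _ => 0) (e u) (e v)) :
    Identifies (N + 1) G := by
  intro m' H _ hE
  have hJ : JEquiv (N + 1) G H := by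
    unfold WLEquiv at hE
    rwa [if_neg (by omega)] at hE
  have hG' : G = fun u v => X.adj (bsys T N b) (fun _ => 0) (e u) (e v) := by
    funext u v; exact hG u v
  have h1 := fam_of_jequiv (show 2 ≤ N + 1 by omega) hm hJ
  rw [hG'] at h1
  have h2 : ∃ F : PebbleFam (N + 2) (X.adj (bsys T N b) (fun _ => 0)) H, ∃ x x', F.R x x' :=
    fam_transport (G := X.adj (bsys T N b) (fun _ => 0)) (H := H) e (Equiv.refl (Fin m')) h1
  obtain ⟨F, x, x', hx⟩ := h2
  obtain ⟨b', E, hE'⟩ := X.structure_thm (show 3 ≤ N + 2 by omega) (fun _ => 0)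
    (show TR (N + 2) (X.adj (bsys T N b) (fun _ => 0)) H x x' from ⟨F, hx⟩)
  have hH' : H = fun u v => X.adj (bsys T N b) b' (E.symm u) (E.symm v) := by
    funext u v
    rw [← hE', Equiv.apply_symm_apply, Equiv.apply_symm_apply]
  have h3 : ∃ F : PebbleFam (N + 2) (X.adj (bsys T N b) (fun _ => 0)) (X.adj (bsys T N b) b'),
      ∃ x x', F.R x x' := by
    refine fam_transport e E.symm ?_
    rw [← hH']
    exact h1
  obtain ⟨F2, y, y', hy⟩ := h3
  obtain ⟨Bf⟩ := X.exists_fam (show 3 ≤ N + 2 by omega) (fun _ => 0) b' F2 y y' hy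
  have e0 : (fun c => (0 : ZMod 2) + b' c) = b' := by
    funext c; rw [zero_add]
  rw [e0] at Bf
  let D := B.D T N b hN
  let β : (book T N b hN).Chk → ZMod 2 := fun c => b' (D.fC.symm c).1
  have hβ : ∀ c, b' c.1 = β (D.fC c) := by
    intro c
    show b' c.1 = b' (D.fC.symm (D.fC c)).1
    rw [Equiv.symm_apply_apply]
  obtain ⟨Cf⟩ := (D.par β).cfam b' Bf hβ
  obtain ⟨Df⟩ := Cf.toDFam
  obtain ⟨z, hz⟩ := book_lin hT hN hb ht hacc β Df
  obtain ⟨e2, he2⟩ := X.iso_of_bd (S := bsys T N b) (fun _ => 0) b' (fun x => z (D.fE x)) (by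
    intro c hc
    rw [zero_add, hβ ⟨c, hc⟩, ← hz, D.sum_eq]
    unfold Sys.bd Sys.sv
    rfl)
  refine ⟨e.trans (e2.trans E), fun v w => ?_⟩
  show H (E (e2 (e v))) (E (e2 (e w))) = G v w
  rw [hE', he2, hG]

/-- Rejection: no dimension `≤ N + 1` identifies the untwisted graph. -/
theorem not_identifies_reject (B : BDict bsys btw) {T : Tab} (hT : T.Ok) {N b : ℕ} (hN : 1 ≤ N)
    (h : ∀ t, t + 1 < (b + 1) ^ N → ¬ T.Acc [] t) {m : ℕ} (hm : 0 < m)
    (G : Fin m → Fin m → Bool) (e : Fin m ≃ X.V (bsys T N b))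
    (hG : ∀ u v, G u v = X.adj (bsys T N b) (fun _ => 0) (e u) (e v)) {k' : ℕ} (hk1 : 1 ≤ k')
    (hk : k' ≤ N + 1) (hI : Identifies k' G) : False := by
  have hG' : G = fun u v => X.adj (bsys T N b) (fun _ => 0) (e u) (e v) := by
    funext u v; exact hG u v
  obtain ⟨Str⟩ := strat_reject B T hT N b hN h
  let H : Fin m → Fin m → Bool := fun u v => X.adj (bsys T N b) (btw T N b) (e u) (e v)
  have hs : IsSimple H :=
    ⟨fun u v => X.adj_symm _ _ _, fun u => X.adj_irrefl _ _⟩
  have hW : WLEquiv k' G H := by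
    unfold WLEquiv
    split_ifs with h1
    · rw [hG']
      exact crequiv_of_strat (show 2 ≤ N + 2 by omega) Str e e
    · obtain ⟨Str'⟩ := strat_mono (show k' + 1 ≤ N + 2 by omega) Str
      rw [hG']
      exact jequiv_of_strat hk1 Str' e e
  obtain ⟨E, hE⟩ := hI m H hs hW
  refine not_iso B T N b hN ⟨(e ⟨0, hm⟩).1⟩ (e.symm.trans (E.trans e)) fun p q => ?_
  have h2 := hE (e.symm p) (e.symm q)
  rw [hG] at h2
  simpa [H] using h2

/-- `SysId`: identification by some dimension `≤ N + 1` iff the table accepts within the bound. -/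
theorem sysId_of (B : BDict bsys btw) {T : Tab} (hT : T.Ok) {N b : ℕ} (hN : 1 ≤ N) (hb : 1 ≤ b)
    {m : ℕ} (hm : 0 < m) (G : Fin m → Fin m → Bool) (e : Fin m ≃ X.V (bsys T N b))
    (hG : ∀ u v, G u v = X.adj (bsys T N b) (fun _ => 0) (e u) (e v)) :
    (∃ k', 1 ≤ k' ∧ k' ≤ N + 1 ∧ Identifies k' G) ↔ ¬ ∀ t, t + 1 < (b + 1) ^ N → ¬ T.Acc [] t := by
  constructor
  · rintro ⟨k', h1, h2, h3⟩ h
    exact not_identifies_reject B hT hN h hm G e hG h1 h2 h3
  · intro h
    push Not at h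
    obtain ⟨t, ht, hacc⟩ := h
    exact ⟨N + 1, by omega, le_rfl, identifies_accept B hT hN hb ht hacc hm G e hG⟩

/-- S0437, the core. -/
theorem coreD_of (B : BDict bsys btw) (hUP : SysUP bsys btw)
    (hpos : ∀ T : Tab, ∀ N b, 1 ≤ N → 0 < (bsys T N b).nC) : CoreD := by
  intro T hT d
  let N : W → ℕ := fun x => (x.length + d) ^ d + x.length + 3
  have hN : UN N := (((UN.powC ((UN.len CHR.PT.id).add (UN.const d)) d).add
    (UN.len CHR.PT.id)).add (UN.const 3))
  obtain ⟨m, A, A', hm, hA, hA', h⟩ := graphs_of_sys hUP (zf := fun x => x) (cf := fun _ => tc T)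
    (N := N) (b := fun _ => 1) CHR.PT.id (CHR.PT.const (tc T)) hN (UN.const 1)
  refine ⟨fun x => N x + 1, m, A, hN.add (UN.const 1), hm, hA, fun x => ?_⟩
  have hN1 : 1 ≤ N x := by show 1 ≤ (x.length + d) ^ d + x.length + 3; omega
  obtain ⟨hmx, e, he, he'⟩ := h x T hT rfl hN1
  have hTx : (inpT x T).Ok := inpT_ok hT
  have hm0 : 0 < m x := by
    have hc : (bsys (inpT x T) (N x) 1).C :=
      (bsys (inpT x T) (N x) 1).eC.symm ⟨0, hpos (inpT x T) (N x) 1 hN1⟩
    exact (e.symm (V0.co hc 0 0, 0)).pos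
  refine ⟨show 1 ≤ N x + 1 by omega, hm0, ⟨fun u v => ?_, fun u => ?_⟩,
    2 ^ N x - x.length - 2, ?_, ?_⟩
  · rw [he, he]
    exact X.adj_symm _ _ _
  · rw [he]
    exact X.adj_irrefl _ _
  · have h1 : 2 ^ N x = 2 ^ ((x.length + d) ^ d) * (2 ^ x.length * 8) := by
      show 2 ^ ((x.length + d) ^ d + x.length + 3) = _
      rw [pow_add, pow_add]; ring
    have h2 : x.length < 2 ^ x.length := Nat.lt_two_pow_self
    have h3 : 1 ≤ 2 ^ ((x.length + d) ^ d) := Nat.one_le_two_pow
    have h4 : 2 ^ ((x.length + d) ^ d) * 1 + x.length * 1 + 2 ≤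
        2 ^ ((x.length + d) ^ d) * (2 ^ x.length * 8) := by
      nlinarith
    omega
  · rw [sysId_of B hTx hN1 le_rfl hm0 _ e he]
    have h2 : x.length < 2 ^ x.length := Nat.lt_two_pow_self
    have h5 : 2 + x.length ≤ (1 + 1) ^ N x := by
      have h6 : 2 ^ (x.length + 3) ≤ 2 ^ N x := Nat.pow_le_pow_right (by norm_num)
        (by show x.length + 3 ≤ (x.length + d) ^ d + x.length + 3; omega)
      have h7 : 2 ^ (x.length + 3) = 2 ^ x.length * 8 := by rw [pow_add]; norm_num
      show 2 + x.length ≤ 2 ^ N x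
      omega
    rw [not_acc_iff hT x h5, not_not]

end Crest.Agent.WL
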